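import Vale.Agent.Lib.P074.LB.Statements
import Vale.Agent.Lib.P074.helper2.Lift

/-!
# P074: assembly of the real-valued stability estimate from the potential statement, the
lifting lemma and the analytic core
-/

namespace Vale.Agent.Lib.P074

open MeasureTheory ENNReal

theorem isProbabilityMeasure_unif_of_compact {d : ℕ} {K : Set (E d)} (hK : IsCompact K)
    (hKi : (interior K).Nonempty) : IsProbabilityMeasure (unif K) := by
  have h0 : volume K ≠ 0 := by
    have h1 : 0 < volume (interior K) := isOpen_interior.measure_pos volume hKi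
    exact (h1.trans_le (measure_mono interior_subset)).ne'
  have htop : volume K ≠ ∞ := hK.measure_lt_top.ne
  refine ⟨?_⟩
  simp only [unif, Measure.smul_apply, Measure.restrict_apply MeasurableSet.univ, Set.univ_inter,
    smul_eq_mul]
  exact ENNReal.inv_mul_cancel h0 htop

theorem ae_norm_le_of_map {d : ℕ} {α : Type*} [MeasurableSpace α] {ρ : Measure α}
    {μ : Measure (E d)} [IsProbabilityMeasure μ] {T : α → E d}
    (hT : Measurable T) (hmap : ρ.map T = μ) {Y : Set (E d)} (hY : IsCompact Y) (hμY : μ Y = 1)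
    {R : ℝ} (hR : Y ⊆ Metric.closedBall 0 R) : ∀ᵐ x ∂ρ, ‖T x‖ ≤ R := by
  have hYm : MeasurableSet Y := hY.isClosed.measurableSet
  have h1 : ∀ᵐ y ∂μ, y ∈ Y := by
    rw [ae_iff]
    exact (prob_compl_eq_zero_iff hYm).mpr hμY
  rw [← hmap] at h1
  have h2 := ae_of_ae_map hT.aemeasurable h1
  filter_upwards [h2] with x hx
  simpa using hR hx

theorem real_of_pot_core (d : ℕ) (hpot : PotStatement d) (hcore : CoreStatement d) :
    RealStatement d := by
  intro K hK hKc hKi Y hY hYne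
  obtain ⟨R, hR⟩ := hY.isBounded.subset_closedBall (0 : E d)
  have hR0 : 0 ≤ R := by
    obtain ⟨y, hy⟩ := hYne
    have := hR hy
    rw [Metric.mem_closedBall] at this
    exact dist_nonneg.trans this
  have hprob : IsProbabilityMeasure (unif K) := isProbabilityMeasure_unif_of_compact hK hKi
  obtain ⟨C0, hC0, hcore'⟩ := hcore K hK hKc hKi R hR0
  refine ⟨4 * R * Real.sqrt (2 * R) + C0, by positivity, ?_⟩
  intro μ ν hμ hν hμY hνY T S hT hS π hπ1 hπ2
  have hTb : ∀ᵐ x ∂(unif K), ‖T x‖ ≤ R := ae_norm_le_of_map hT.1 hT.2.1 hY hμY hR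
  have hSb : ∀ᵐ x ∂(unif K), ‖S x‖ ≤ R := ae_norm_le_of_map hS.1 hS.2.1 hY hνY hR
  obtain ⟨φ, hφc, hφL, hφs⟩ := hpot K hK hKc hKi μ T hT R hTb
  obtain ⟨ψ, hψc, hψL, hψs⟩ := hpot K hK hKc hKi ν S hS R hSb
  obtain ⟨Γ, hΓ1, hΓ2, hΓπ⟩ := exists_lift (unif K) T S hT.1 hS.1 π
    (hπ1.trans hT.2.1.symm) (hπ2.trans hS.2.1.symm)
  have hmain := hcore' φ ψ T S hφc hψc hφL hψL hT.1 hS.1 hφs hψs Γ hΓ1 hΓ2
  have hF : Measurable (fun q : E d × E d => (T q.1, S q.2)) :=
    (hT.1.comp measurable_fst).prodMk (hS.1.comp measurable_snd)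
  have e1 : ∫ q, ‖T q.1 - S q.2‖ ^ 2 ∂Γ = ∫ p, ‖p.1 - p.2‖ ^ 2 ∂π := by
    rw [← hΓπ]
    exact (integral_map hF.aemeasurable
      (f := fun p : E d × E d => ‖p.1 - p.2‖ ^ 2) (by fun_prop)).symm
  have e2 : ∫ q, ‖T q.1 - S q.2‖ ∂Γ = ∫ p, ‖p.1 - p.2‖ ∂π := by
    rw [← hΓπ]
    exact (integral_map hF.aemeasurable
      (f := fun p : E d × E d => ‖p.1 - p.2‖) (by fun_prop)).symm
  rw [e1, e2] at hmain
  have hπprob : IsProbabilityMeasure π := by
    refine ⟨?_⟩
    have : μ Set.univ = 1 := measure_univ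
    rw [← hπ1, Measure.map_apply measurable_fst MeasurableSet.univ] at this
    simpa using this
  have hb1 : ∀ᵐ p ∂π, ‖p.1‖ ≤ R := by
    have := ae_norm_le_of_map (ρ := π) (T := Prod.fst) measurable_fst hπ1 hY hμY hR
    exact this
  have hb2 : ∀ᵐ p ∂π, ‖p.2‖ ≤ R := by
    have := ae_norm_le_of_map (ρ := π) (T := Prod.snd) measurable_snd hπ2 hY hνY hR
    exact this
  have hb : ∀ᵐ p ∂π, ‖p.1 - p.2‖ ≤ 2 * R := by
    filter_upwards [hb1, hb2] with p h1 h2
    calc ‖p.1 - p.2‖ ≤ ‖p.1‖ + ‖p.2‖ := norm_sub_le _ _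
      _ ≤ 2 * R := by linarith
  have hi1 : Integrable (fun p : E d × E d => ‖p.1 - p.2‖) π := by
    refine Integrable.of_bound (by fun_prop) (2 * R) ?_
    filter_upwards [hb] with p hp
    simpa using hp
  have hi2 : Integrable (fun p : E d × E d => ‖p.1 - p.2‖ ^ 2) π := by
    refine Integrable.of_bound (by fun_prop) ((2 * R) ^ 2) ?_
    filter_upwards [hb] with p hp
    have h0 : 0 ≤ ‖p.1 - p.2‖ := norm_nonneg _
    simp only [norm_pow, norm_norm]
    exact pow_le_pow_left₀ h0 hp 2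
  set w := ∫ p, ‖p.1 - p.2‖ ∂π with hw
  have hw0 : 0 ≤ w := integral_nonneg fun p => norm_nonneg _
  have hw2 : w ≤ 2 * R := by
    have h := integral_mono_ae hi1 (integrable_const (2 * R)) hb
    simpa using h
  have hsq : ∫ p, ‖p.1 - p.2‖ ^ 2 ∂π ≤ 2 * R * w := by
    rw [hw, ← integral_const_mul]
    refine integral_mono_ae hi2 (hi1.const_mul _) ?_
    filter_upwards [hb] with p hp
    have h0 : 0 ≤ ‖p.1 - p.2‖ := norm_nonneg _
    nlinarith
  have hsw : w ≤ Real.sqrt (2 * R) * Real.sqrt w := by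
    calc w = Real.sqrt w * Real.sqrt w := (Real.mul_self_sqrt hw0).symm
      _ ≤ Real.sqrt (2 * R) * Real.sqrt w :=
        mul_le_mul_of_nonneg_right (Real.sqrt_le_sqrt hw2) (Real.sqrt_nonneg _)
  have hsw0 : 0 ≤ Real.sqrt w := Real.sqrt_nonneg _
  calc ∫ x, ‖T x - S x‖ ^ 2 ∂(unif K)
      ≤ 2 * ∫ p, ‖p.1 - p.2‖ ^ 2 ∂π + C0 * Real.sqrt w := hmain
    _ ≤ 2 * (2 * R * w) + C0 * Real.sqrt w := by linarith
    _ ≤ 2 * (2 * R * (Real.sqrt (2 * R) * Real.sqrt w)) + C0 * Real.sqrt w := by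
        have := mul_le_mul_of_nonneg_left hsw (by positivity : (0 : ℝ) ≤ 2 * R)
        linarith
    _ = (4 * R * Real.sqrt (2 * R) + C0) * Real.sqrt w := by ring

end Vale.Agent.Lib.P074
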