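import Vale.Agent.Lib.P074.Third.Basic

/-!
# P074: continuity of the weights of a power diagram in its cell masses (`ContStatement`)
-/

namespace Vale.Agent.Lib.P074

open MeasureTheory ENNReal

namespace Cont

variable {d n : ℕ}

/-- The points of `K` at which some affine function with index in `I` exceeds all those
with index outside `I` by at least `s`. -/
def upset (K : Set (E d)) (y : Fin (n + 1) → E d) (ψ : Fin (n + 1) → ℝ)
    (I : Finset (Fin (n + 1))) (s : ℝ) : Set (E d) :=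
  {x | x ∈ K ∧ ∃ i ∈ I, ∀ j, j ∉ I → inner ℝ x (y j) - ψ j + s ≤ inner ℝ x (y i) - ψ i}

lemma upset_anti (K : Set (E d)) (y : Fin (n + 1) → E d) (ψ : Fin (n + 1) → ℝ)
    (I : Finset (Fin (n + 1))) {s t : ℝ} (hst : s ≤ t) :
    upset K y ψ I t ⊆ upset K y ψ I s := by
  rintro x ⟨hx, i, hi, h⟩
  exact ⟨hx, i, hi, fun j hj => by linarith [h j hj]⟩

lemma isClosed_upset {K : Set (E d)} (hK : IsClosed K) (y : Fin (n + 1) → E d)
    (ψ : Fin (n + 1) → ℝ) (I : Finset (Fin (n + 1))) (s : ℝ) :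
    IsClosed (upset K y ψ I s) := by
  have : upset K y ψ I s = K ∩ ⋃ i ∈ I, ⋂ j,
      {x | j ∉ I → inner ℝ x (y j) - ψ j + s ≤ inner ℝ x (y i) - ψ i} := by
    ext x
    simp only [upset, Set.mem_ofPred_eq, Set.mem_inter_iff, Set.mem_iUnion, Set.mem_iInter,
      exists_prop]
  rw [this]
  refine hK.inter (isClosed_biUnion_finset fun i _ => isClosed_iInter fun j => ?_)
  by_cases hj : j ∈ I
  · simp [hj]
  · simp only [hj, not_false_eq_true, forall_const]
    exact isClosed_le (by fun_prop) (by fun_prop)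

lemma biUnion_pcell_eq (K : Set (E d)) (y : Fin (n + 1) → E d) (ψ : Fin (n + 1) → ℝ)
    (I : Finset (Fin (n + 1))) : ⋃ i ∈ I, pcell K y ψ i = upset K y ψ I 0 := by
  ext x
  simp only [Set.mem_iUnion, exists_prop]
  constructor
  · rintro ⟨i, hi, hx⟩
    exact ⟨hx.1, i, hi, fun j _ => by linarith [hx.2 j]⟩
  · rintro ⟨hx, i, hi, h⟩
    obtain ⟨i', hi', hmax⟩ :=
      Finset.exists_max_image I (fun i => inner ℝ x (y i) - ψ i) ⟨i, hi⟩
    refine ⟨i', hi', hx, fun j => ?_⟩
    by_cases hj : j ∈ I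
    · exact hmax j hj
    · have h1 := h j hj
      have h2 := hmax i hi
      linarith

lemma biUnion_pcell_subset (K : Set (E d)) (y : Fin (n + 1) → E d) (ψ ψ' : Fin (n + 1) → ℝ)
    (I : Finset (Fin (n + 1))) (g : ℝ)
    (hg : ∀ i ∈ I, ∀ j, j ∉ I → g ≤ (ψ' i - ψ i) - (ψ' j - ψ j)) :
    ⋃ i ∈ I, pcell K y ψ' i ⊆ upset K y ψ I g := by
  intro x hx
  simp only [Set.mem_iUnion, exists_prop] at hx
  obtain ⟨i, hi, hx⟩ := hx
  refine ⟨hx.1, i, hi, fun j hj => ?_⟩
  have h1 := hx.2 j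
  have h2 := hg i hi j hj
  linarith

lemma toReal_biUnion_pcell {K : Set (E d)} (hK : IsCompact K) (hint : (interior K).Nonempty)
    {y : Fin (n + 1) → E d} (hy : Function.Injective y) (ψ : Fin (n + 1) → ℝ)
    (I : Finset (Fin (n + 1))) :
    (unif K (⋃ i ∈ I, pcell K y ψ i)).toReal = ∑ i ∈ I, cmass K y ψ i := by
  have h := measure_biUnion_finset₀ (μ := unif K) (s := I) (f := pcell K y ψ)
    (fun i _ j _ hij => aedisjoint_pcell hy ψ hij)
    (fun i _ => (measurableSet_pcell hK.isClosed y ψ i).nullMeasurableSet)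
  rw [h, ENNReal.toReal_sum (fun i _ => unif_pcell_ne_top hK hint y ψ i)]
  rfl

lemma exists_strict {K : Set (E d)} (hK : IsCompact K) (hconv : Convex ℝ K)
    {y : Fin (n + 1) → E d} (hy : Function.Injective y)
    (ψ : Fin (n + 1) → ℝ) (k : Fin (n + 1)) (hk : 0 < cmass K y ψ k) :
    ∃ x ∈ interior K, ∀ j, j ≠ k → inner ℝ x (y j) - ψ j < inner ℝ x (y k) - ψ k := by
  set Z : Set (E d) := frontier K ∪ ⋃ j : Fin (n + 1),
      {x | j ≠ k ∧ inner ℝ x (y k - y j) = ψ k - ψ j} with hZ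
  have hZ0 : volume Z = 0 := by
    refine measure_union_null (hconv.addHaar_frontier volume) ?_
    refine measure_iUnion_null fun j => ?_
    by_cases hj : j = k
    · simp [hj]
    · exact measure_mono_null (fun x hx => hx.2)
        (volume_hyperplane _ (sub_ne_zero.2 (hy.ne (Ne.symm hj))) _)
  have hZ1 : unif K Z = 0 := unif_ac K hZ0
  have hpos : unif K (pcell K y ψ k) ≠ 0 := by
    intro h0
    simp [cmass, h0] at hk
  have hne : ¬ pcell K y ψ k ⊆ Z := fun hsub => hpos (measure_mono_null hsub hZ1)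
  obtain ⟨x, hx, hxZ⟩ := Set.not_subset.1 hne
  have hxf : x ∉ frontier K := fun h => hxZ (Or.inl h)
  have hxi : x ∈ interior K := by
    by_contra h
    exact hxf (by rw [hK.isClosed.frontier_eq]; exact ⟨hx.1, h⟩)
  refine ⟨x, hxi, fun j hj => lt_of_le_of_ne (hx.2 j) fun heq => hxZ (Or.inr ?_)⟩
  simp only [Set.mem_iUnion]
  refine ⟨j, hj, ?_⟩
  simp only [inner_sub_right]
  linarith

lemma pos_band {K : Set (E d)} (hK : IsCompact K) (hconv : Convex ℝ K)
    (hint : (interior K).Nonempty) {y : Fin (n + 1) → E d} (hy : Function.Injective y)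
    (ψ : Fin (n + 1) → ℝ) (hm : ∀ k, 0 < cmass K y ψ k) (I : Finset (Fin (n + 1)))
    (hI : I.Nonempty) (hI' : I ≠ Finset.univ) {s : ℝ} (hs : 0 < s) :
    0 < (unif K (upset K y ψ I 0 \ upset K y ψ I s)).toReal := by
  classical
  have hIc : Iᶜ.Nonempty := by
    rw [Finset.nonempty_iff_ne_empty]
    intro h
    exact hI' ((Finset.compl_eq_empty_iff I).1 h)
  obtain ⟨i₀, hi₀⟩ := id hI
  obtain ⟨j₀, hj₀⟩ := id hIc
  have hj₀' : j₀ ∉ I := Finset.mem_compl.1 hj₀
  obtain ⟨x₁, hx₁, h1⟩ := exists_strict hK hconv hy ψ i₀ (hm i₀)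
  obtain ⟨x₂, hx₂, h2⟩ := exists_strict hK hconv hy ψ j₀ (hm j₀)
  set h : E d → ℝ := fun x => I.sup' hI (fun i => inner ℝ x (y i) - ψ i) -
      Iᶜ.sup' hIc (fun j => inner ℝ x (y j) - ψ j) with hh
  have hcont : Continuous h := by
    refine Continuous.sub ?_ ?_
    · exact Continuous.finset_sup'_apply _ (fun i _ => by fun_prop)
    · exact Continuous.finset_sup'_apply _ (fun i _ => by fun_prop)
  have hpos1 : 0 < h x₁ := by
    have ha : Iᶜ.sup' hIc (fun j => inner ℝ x₁ (y j) - ψ j) <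
        inner ℝ x₁ (y i₀) - ψ i₀ := by
      rw [Finset.sup'_lt_iff]
      intro j hj
      exact h1 j (fun hji => (Finset.mem_compl.1 hj) (hji ▸ hi₀))
    have hb : inner ℝ x₁ (y i₀) - ψ i₀ ≤ I.sup' hI (fun i => inner ℝ x₁ (y i) - ψ i) :=
      Finset.le_sup' (fun i => inner ℝ x₁ (y i) - ψ i) hi₀
    simp only [hh]
    linarith
  have hneg2 : h x₂ < 0 := by
    have ha : I.sup' hI (fun i => inner ℝ x₂ (y i) - ψ i) <
        inner ℝ x₂ (y j₀) - ψ j₀ := by
      rw [Finset.sup'_lt_iff]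
      intro i hi
      exact h2 i (fun hij => hj₀' (hij ▸ hi))
    have hb : inner ℝ x₂ (y j₀) - ψ j₀ ≤
        Iᶜ.sup' hIc (fun j => inner ℝ x₂ (y j) - ψ j) :=
      Finset.le_sup' (fun j => inner ℝ x₂ (y j) - ψ j) hj₀
    simp only [hh]
    linarith
  set v : ℝ := min (h x₁) (s / 2) with hv
  have hv0 : 0 < v := lt_min hpos1 (by linarith)
  have hvs : v < s := lt_of_le_of_lt (min_le_right _ _) (by linarith)
  have hvmem : v ∈ Set.Icc (h x₂) (h x₁) := ⟨by linarith, min_le_left _ _⟩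
  obtain ⟨x₃, hx₃, hx₃v⟩ :=
    (hconv.interior.isPreconnected.intermediate_value hx₂ hx₁ hcont.continuousOn) hvmem
  set U : Set (E d) := interior K ∩ h ⁻¹' Set.Ioo 0 s with hU
  have hUo : IsOpen U := isOpen_interior.inter (isOpen_Ioo.preimage hcont)
  have hUne : U.Nonempty := ⟨x₃, hx₃, by rw [Set.mem_preimage, hx₃v]; exact ⟨hv0, hvs⟩⟩
  have hUK : U ⊆ K := fun x hx => interior_subset hx.1
  have hUsub : U ⊆ upset K y ψ I 0 \ upset K y ψ I s := by
    intro x hx
    have hxh : 0 < h x ∧ h x < s := hx.2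
    obtain ⟨i, hi, hieq⟩ :=
      Finset.exists_mem_eq_sup' hI (fun i => inner ℝ x (y i) - ψ i)
    obtain ⟨j, hj, hjeq⟩ :=
      Finset.exists_mem_eq_sup' hIc (fun j => inner ℝ x (y j) - ψ j)
    constructor
    · refine ⟨hUK hx, i, hi, fun j' hj' => ?_⟩
      have h6 := Finset.le_sup' (fun j => inner ℝ x (y j) - ψ j) (Finset.mem_compl.2 hj')
      have h3 := hxh.1
      simp only [hh] at h3
      linarith
    · rintro ⟨-, i', hi', hall⟩
      have h4 := hall j (Finset.mem_compl.1 hj)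
      have h5 := Finset.le_sup' (fun i => inner ℝ x (y i) - ψ i) hi' 
      have h3 := hxh.2
      simp only [hh] at h3
      linarith
  have hvolU : 0 < volume U := hUo.measure_pos volume hUne
  have hunifU : 0 < unif K U := by
    unfold unif
    rw [Measure.smul_apply, Measure.restrict_apply hUo.measurableSet,
      Set.inter_eq_left.2 hUK, smul_eq_mul]
    exact ENNReal.mul_pos (ENNReal.inv_ne_zero.2 hK.measure_lt_top.ne) hvolU.ne'
  have := unif_isProbabilityMeasure hK hint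
  exact ENNReal.toReal_pos (lt_of_lt_of_le hunifU (measure_mono hUsub)).ne' (measure_ne_top _ _)

lemma exists_gap (δ : Fin (n + 1) → ℝ) {g : ℝ} (hg : 0 < g) (k₀ k₁ : Fin (n + 1))
    (h : (n + 1 : ℝ) * g ≤ δ k₁ - δ k₀) :
    ∃ I : Finset (Fin (n + 1)), I.Nonempty ∧ I ≠ Finset.univ ∧
      ∀ i ∈ I, ∀ j, j ∉ I → g ≤ δ i - δ j := by
  classical
  set J : ℕ → Finset (Fin (n + 1)) :=
    fun r => Finset.univ.filter (fun k => δ k₀ + r * g ≤ δ k) with hJ
  have hJmem : ∀ r k, k ∈ J r ↔ δ k₀ + r * g ≤ δ k := fun r k => by simp [hJ]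
  have hanti : ∀ r, J (r + 1) ⊆ J r := by
    intro r k hk
    rw [hJmem] at hk ⊢
    push_cast at hk
    nlinarith
  by_cases hex : ∃ r, r < n + 1 ∧ J (r + 1) = J r
  · obtain ⟨r, hr, heq⟩ := hex
    refine ⟨J (r + 1), ⟨k₁, ?_⟩, ?_, ?_⟩
    · rw [hJmem]
      have hr' : ((r + 1 : ℕ) : ℝ) ≤ (n : ℝ) + 1 := by exact_mod_cast hr
      nlinarith
    · intro huniv
      have hk : k₀ ∈ J (r + 1) := by rw [huniv]; exact Finset.mem_univ _
      rw [hJmem] at hk
      push_cast at hk
      have hr0 : (0 : ℝ) ≤ r := Nat.cast_nonneg r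
      nlinarith
    · intro i hi j hj
      rw [heq] at hj
      rw [hJmem] at hi hj
      push_cast at hi
      have hj' := not_le.1 hj
      linarith
  · exfalso
    have hstep : ∀ r, r ≤ n + 1 → (J r).card + r ≤ n + 1 := by
      intro r
      induction r with
      | zero =>
        intro _
        simpa using (Finset.card_le_univ (J 0))
      | succ r ih =>
        intro hr
        have h1 := ih (by omega)
        have hne : J (r + 1) ≠ J r := fun heq => hex ⟨r, by omega, heq⟩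
        have hlt : (J (r + 1)).card < (J r).card :=
          Finset.card_lt_card (Finset.ssubset_iff_subset_ne.2 ⟨hanti r, hne⟩)
        omega
    have h2 := hstep (n + 1) le_rfl
    have h3 : k₁ ∈ J (n + 1) := by
      rw [hJmem]
      push_cast
      linarith
    have h4 : 0 < (J (n + 1)).card := Finset.card_pos.2 ⟨k₁, h3⟩
    omega

end Cont

open Cont in
theorem cont_statement (d : ℕ) : ContStatement d := by
  classical
  intro K hK hconv hint n y hy ψ hm δ hδ
  have hprob := unif_isProbabilityMeasure hK hint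
  set g : ℝ := δ / (n + 1) with hg
  have hg0 : 0 < g := by positivity
  set F : Finset (Fin (n + 1)) → ℝ := fun I =>
    if I.Nonempty ∧ I ≠ Finset.univ then
      (unif K (upset K y ψ I 0 \ upset K y ψ I g)).toReal else 1 with hF
  have hFpos : ∀ I, 0 < F I := by
    intro I
    simp only [hF]
    split_ifs with hI
    · exact pos_band hK hconv hint hy ψ hm I hI.1 hI.2 hg0
    · exact one_pos
  set θ : ℝ := Finset.univ.inf' Finset.univ_nonempty F with hθ
  have hθpos : 0 < θ := by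
    rw [hθ, Finset.lt_inf'_iff]
    exact fun I _ => hFpos I
  refine ⟨θ, hθpos, fun ψ' hψ' => ?_⟩
  obtain ⟨k₀, -, hk₀⟩ :=
    Finset.exists_min_image Finset.univ (fun k => ψ' k - ψ k) Finset.univ_nonempty
  obtain ⟨k₁, -, hk₁⟩ :=
    Finset.exists_max_image Finset.univ (fun k => ψ' k - ψ k) Finset.univ_nonempty
  by_cases hsmall : (ψ' k₁ - ψ k₁) - (ψ' k₀ - ψ k₀) < δ
  · refine ⟨ψ' k₀ - ψ k₀, fun k => ?_⟩
    have h1 := hk₀ k (Finset.mem_univ k)
    have h2 := hk₁ k (Finset.mem_univ k)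
    rw [abs_lt]
    constructor <;> linarith
  · exfalso
    have hbig : (n + 1 : ℝ) * g ≤ (ψ' k₁ - ψ k₁) - (ψ' k₀ - ψ k₀) := by
      have hgd : (n + 1 : ℝ) * g = δ := by
        rw [hg]
        field_simp
      linarith
    obtain ⟨I, hIne, hIuniv, hgap⟩ := exists_gap (fun k => ψ' k - ψ k) hg0 k₀ k₁ hbig
    have hFI : F I = (unif K (upset K y ψ I 0 \ upset K y ψ I g)).toReal := by
      simp only [hF]
      rw [if_pos ⟨hIne, hIuniv⟩]
    have hθle : θ ≤ F I := Finset.inf'_le F (Finset.mem_univ I)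
    have e1 : (unif K (upset K y ψ I 0)).toReal = ∑ i ∈ I, cmass K y ψ i := by
      rw [← biUnion_pcell_eq, toReal_biUnion_pcell hK hint hy]
    have e2 : ∑ i ∈ I, cmass K y ψ' i ≤ (unif K (upset K y ψ I g)).toReal := by
      rw [← toReal_biUnion_pcell hK hint hy]
      exact ENNReal.toReal_mono (measure_ne_top _ _)
        (measure_mono (biUnion_pcell_subset K y ψ ψ' I g hgap))
    have e3 : (unif K (upset K y ψ I 0 \ upset K y ψ I g)).toReal =
        (unif K (upset K y ψ I 0)).toReal - (unif K (upset K y ψ I g)).toReal := by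
      rw [measure_sdiff (upset_anti K y ψ I hg0.le)
        (isClosed_upset hK.isClosed y ψ I g).measurableSet.nullMeasurableSet
        (measure_ne_top _ _)]
      exact ENNReal.toReal_sub_of_le (measure_mono (upset_anti K y ψ I hg0.le))
        (measure_ne_top _ _)
    have e4 : ∑ i ∈ I, (cmass K y ψ i - cmass K y ψ' i) ≤
        ∑ k, |cmass K y ψ' k - cmass K y ψ k| := by
      calc ∑ i ∈ I, (cmass K y ψ i - cmass K y ψ' i)
          ≤ ∑ i ∈ I, |cmass K y ψ' i - cmass K y ψ i| :=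
            Finset.sum_le_sum fun i _ => by rw [abs_sub_comm]; exact le_abs_self _
        _ ≤ ∑ k, |cmass K y ψ' k - cmass K y ψ k| :=
            Finset.sum_le_sum_of_subset_of_nonneg (Finset.subset_univ I)
              fun k _ _ => abs_nonneg _
    rw [Finset.sum_sub_distrib] at e4
    linarith

end Vale.Agent.Lib.P074
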